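import Mathlib

/-!
Row 123 (S0248, Foulkes-Howe surjectivity).  Generic lemmas (merged version).
Pieces by helper646 (coefficients, powers), helper506 (elimination), helper543 (binary forms).
-/

set_option autoImplicit false

namespace Claimed.Agent.R123.FH

open Finset Polynomial



/-- coefficient extraction, scalar version -/
theorem coef_zero_scalar (N : ℕ) (c : ℕ → ℂ)
    (h : ∀ t : ℂ, ∑ i ∈ range N, t ^ i * c i = 0) : ∀ i, i < N → c i = 0 := by
  intro i hi
  have hp : (∑ j ∈ range N, Polynomial.C (c j) * Polynomial.X ^ j : ℂ[X]) = 0 := by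
    apply Polynomial.funext
    intro t
    simp only [Polynomial.eval_finsetSum, Polynomial.eval_mul, Polynomial.eval_C,
      Polynomial.eval_pow, Polynomial.eval_X, Polynomial.eval_zero]
    rw [← h t]
    exact Finset.sum_congr rfl fun j _ => mul_comm _ _
  have := congrArg (fun p : ℂ[X] => p.coeff i) hp
  simp only [Polynomial.finsetSum_coeff, Polynomial.coeff_C_mul, Polynomial.coeff_X_pow,
    Polynomial.coeff_zero] at this
  rw [Finset.sum_eq_single i] at this
  · simpa using this
  · intro j _ hj
    simp [Ne.symm hj]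
  · intro hi'
    exact absurd (Finset.mem_range.2 hi) hi'

/-- membership in a subspace can be tested with functionals -/
theorem mem_of_forall_dual {E : Type*} [AddCommGroup E] [Module ℂ E] (M : Submodule ℂ E) (x : E)
    (h : ∀ ψ : E →ₗ[ℂ] ℂ, (∀ m ∈ M, ψ m = 0) → ψ x = 0) : x ∈ M := by
  by_contra hx
  obtain ⟨f, hf, hM⟩ := Submodule.exists_le_ker_of_notMem hx
  exact hf (h f fun m hm => hM hm)

/-- coefficient extraction: a polynomial curve inside a submodule has its coefficients in it. -/
theorem coef_mem {E : Type*} [AddCommGroup E] [Module ℂ E] (M : Submodule ℂ E) (N : ℕ) (c : ℕ → E)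
    (h : ∀ t : ℂ, ∑ i ∈ range N, t ^ i • c i ∈ M) : ∀ i, i < N → c i ∈ M := by
  intro i hi
  apply mem_of_forall_dual
  intro ψ hψ
  refine coef_zero_scalar N (fun j => ψ (c j)) ?_ i hi
  intro t
  have := hψ _ (h t)
  simpa [map_sum] using this

/-- Lemma Pow: products of `m` elements of a subspace are combinations of `m`-th powers. -/
theorem pow_le_span_pow {A : Type*} [CommRing A] [Algebra ℂ A] (U : Submodule ℂ A) (m : ℕ) :
    U ^ m ≤ Submodule.span ℂ ((fun w => w ^ m) '' (U : Set A)) := by
  set M := Submodule.span ℂ ((fun w => w ^ m) '' (U : Set A)) with hM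
  have key : ∀ r, r ≤ m → ∀ X ∈ U ^ r, ∀ w ∈ U, w ^ (m - r) * X ∈ M := by
    intro r
    induction r with
    | zero =>
      intro _ X hX w hw
      rw [pow_zero, Submodule.mem_one] at hX
      obtain ⟨c, rfl⟩ := hX
      rw [Nat.sub_zero, mul_comm, ← Algebra.smul_def]
      exact M.smul_mem _ (Submodule.subset_span ⟨w, hw, rfl⟩)
    | succ r ih =>
      intro hr X hX w hw
      have ih' := ih (by omega)
      rw [pow_succ'] at hX
      refine Submodule.mul_induction_on hX ?_ ?_
      · intro x hx X' hX'
        have hcurve : ∀ t : ℂ, ∑ i ∈ range (m - r + 1),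
            t ^ i • (((m - r).choose i : ℂ) • (w ^ (m - r - i) * x ^ i * X')) ∈ M := by
          intro t
          have h1 := ih' X' hX' (w + t • x) (U.add_mem hw (U.smul_mem t hx))
          have h2 : (w + t • x) ^ (m - r) * X' = ∑ i ∈ range (m - r + 1),
              t ^ i • (((m - r).choose i : ℂ) • (w ^ (m - r - i) * x ^ i * X')) := by
            rw [add_comm, add_pow, Finset.sum_mul]
            refine Finset.sum_congr rfl fun i _ => ?_
            rw [_root_.smul_pow]
            simp only [Algebra.smul_def, map_pow, map_natCast]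
            ring
          rwa [h2] at h1
        have h3 := coef_mem M (m - r + 1) _ hcurve 1 (by omega)
        have hne : ((m - r : ℕ) : ℂ) ≠ 0 := by
          exact_mod_cast (by omega : m - r ≠ 0)
        rw [Nat.choose_one_right] at h3
        have h4 := M.smul_mem (((m - r : ℕ) : ℂ)⁻¹) h3
        rw [smul_smul, inv_mul_cancel₀ hne, one_smul, pow_one] at h4
        have h5 : m - r - 1 = m - (r + 1) := by omega
        rw [h5] at h4
        rwa [mul_assoc] at h4
      · intro y z hy hz
        rw [mul_add]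
        exact M.add_mem hy hz
  intro X hX
  have := key m le_rfl X hX 0 U.zero_mem
  simpa using this


theorem elim_rel {S : Type*} [CommRing S] [Algebra ℂ S]
    (u w mon : S) (k top : ℕ) (L : ℕ → S →ₗ[ℂ] ℂ) (hL : ∀ r, top < r → L r = 0)
    (hyp : ∀ t : ℂ, 
        ∑ r ∈ range (top + 1), t ^ r * L r ((u + t • w) ^ k * mon) = 0) (R : ℕ) :
    ∑ i ∈ range (k + 1), (if i ≤ R then (k.choose i : ℂ) * L (R - i) (u ^ (k - i) * w ^ i * mon) else 0) = 0 := by
  classical
  set q : ℂ[X] := ∑ i ∈ range (k + 1), X ^ i * ∑ r ∈ range (top + 1),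
      C ((k.choose i : ℂ) * L r (u ^ (k - i) * w ^ i * mon)) * X ^ r with hq
  have hq0 : q = 0 := by
    apply Polynomial.funext
    intro t
    rw [eval_zero, ← hyp t, hq]
    simp only [eval_finsetSum, eval_mul, eval_pow, eval_X, eval_C]
    have hexp : ∀ r, L r ((u + t • w) ^ k * mon) =
        ∑ i ∈ range (k + 1), t ^ i * ((k.choose i : ℂ) * L r (u ^ (k - i) * w ^ i * mon)) := by
      intro r
      rw [add_comm u, add_pow, Finset.sum_mul, map_sum]
      apply Finset.sum_congr rfl
      intro i _
      have : (t • w) ^ i * u ^ (k - i) * (k.choose i : S) * mon =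
          (t ^ i * (k.choose i : ℂ)) • (u ^ (k - i) * w ^ i * mon) := by
        rw [_root_.smul_pow, mul_smul, Algebra.smul_def, Algebra.smul_def ((k.choose i : ℂ)), Algebra.smul_def, map_natCast]
        ring
      rw [this, map_smul, smul_eq_mul]
      ring
    simp_rw [hexp, Finset.mul_sum]
    rw [Finset.sum_comm]
    apply Finset.sum_congr rfl
    intro r _
    apply Finset.sum_congr rfl
    intro i _
    ring
  have := congrArg (fun p => p.coeff R) hq0
  simp only [hq, finsetSum_coeff, coeff_X_pow_mul', coeff_zero, coeff_C_mul_X_pow] at this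
  refine Eq.trans ?_ this
  apply Finset.sum_congr rfl
  intro i _
  split_ifs with h
  · rw [Finset.sum_ite_eq]
    split_ifs with h2
    · rfl
    · have : top < R - i := by
        simp only [mem_range, not_lt] at h2
        omega
      rw [hL _ this]; simp
  · rfl

/-- Lemma E (elimination), scalar version. -/
theorem elim {S : Type*} [CommRing S] [Algebra ℂ S]
    (u w : S) (k top : ℕ) (L : ℕ → S →ₗ[ℂ] ℂ) (hL : ∀ r, top < r → L r = 0)
    (hyp : ∀ t : ℂ, ∀ α β, α + β = top →
        ∑ r ∈ range (top + 1), t ^ r * L r ((u + t • w) ^ k * (u ^ α * w ^ β)) = 0) :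
    L 0 (w ^ (k + top)) = 0 := by
  have Z : ∀ e, e ≤ top → ∀ α β, α + β + e = top →
      L (top - e) (w ^ (k + e) * (u ^ α * w ^ β)) = 0 := by
    intro e
    induction e using Nat.strong_induction_on with
    | _ e ih =>
      intro he α β hab
      have rel := elim_rel u w (u ^ α * w ^ (β + e)) k top L hL
        (fun t => hyp t α (β + e) (by omega)) (top + k - e)
      rw [Finset.sum_range_succ] at rel
      have hz : ∑ i ∈ range k, (if i ≤ top + k - e then
          (k.choose i : ℂ) * L (top + k - e - i) (u ^ (k - i) * w ^ i * (u ^ α * w ^ (β + e))) else 0) = 0 := by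
        apply Finset.sum_eq_zero
        intro i hi
        rw [mem_range] at hi
        obtain ⟨d, rfl⟩ : ∃ d, k = i + (d + 1) := ⟨k - i - 1, by omega⟩
        rw [if_pos (by omega)]
        by_cases hde : d + 1 ≤ e
        · obtain ⟨e', rfl⟩ : ∃ e', e = e' + (d + 1) := ⟨e - (d + 1), by omega⟩
          have h1 := ih e' (by omega) (by omega) (α + (d + 1)) β (by omega)
          have h2 : top + (i + (d + 1)) - (e' + (d + 1)) - i = top - e' := by omega
          have h3 : u ^ (i + (d + 1) - i) * w ^ i * (u ^ α * w ^ (β + (e' + (d + 1)))) =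
              w ^ (i + (d + 1) + e') * (u ^ (α + (d + 1)) * w ^ β) := by
            have : i + (d + 1) - i = d + 1 := by omega
            rw [this]
            ring
          rw [h2, h3, h1, mul_zero]
        · rw [hL _ (by omega)]
          simp
      rw [hz, zero_add, if_pos (by omega), Nat.choose_self, Nat.cast_one, one_mul] at rel
      have h2 : top + k - e - k = top - e := by omega
      have h3 : u ^ (k - k) * w ^ k * (u ^ α * w ^ (β + e)) = w ^ (k + e) * (u ^ α * w ^ β) := by
        rw [Nat.sub_self]; ring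
      rw [h2, h3] at rel
      exact rel
  have := Z top le_rfl 0 0 (by omega)
  simpa using this

/-- Lemma E, polynomial / submodule version. -/
theorem elim_poly {S T : Type*} [CommRing S] [Algebra ℂ S] [CommRing T] [Algebra ℂ T]
    (ε : S →ₗ[ℂ] T) (M : Submodule ℂ T) (u w h' : S) (k top : ℕ) (C' : T[X])
    (hC : C'.natDegree ≤ top) (G : T)
    (hyp : ∀ t : ℂ, ∀ α β, α + β = top →
        C'.eval (algebraMap ℂ T t) * ε ((u + t • w) ^ k * (u ^ α * w ^ β * h')) * G ∈ M) :
    C'.coeff 0 * ε (w ^ (k + top) * h') * G ∈ M := by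
  apply mem_of_forall_dual
  intro ψ hψ
  let L : ℕ → S →ₗ[ℂ] ℂ := fun r =>
    ψ ∘ₗ (LinearMap.mulLeft ℂ (C'.coeff r * G)) ∘ₗ ε ∘ₗ (LinearMap.mulRight ℂ h')
  have hLdef : ∀ r x, L r x = ψ (C'.coeff r * G * ε (x * h')) := fun r x => rfl
  have key := elim u w k top L ?_ ?_
  · rw [hLdef] at key
    rw [← key]
    congr 1
    ring
  · intro r hr
    ext x
    rw [hLdef, coeff_eq_zero_of_natDegree_lt (lt_of_le_of_lt hC hr)]
    simp
  · intro t α β hab
    have h1 := hψ _ (hyp t α β hab)
    rw [eval_eq_sum_range' (Nat.lt_succ_of_le hC), Finset.sum_mul, Finset.sum_mul, map_sum] at h1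
    rw [← h1]
    apply Finset.sum_congr rfl
    intro r _
    rw [hLdef, ← smul_eq_mul, ← map_smul]
    congr 1
    rw [← map_pow, Algebra.smul_def]
    ring_nf





open Pointwise in
theorem smul_mem_set_pow {S : Type*} [CommRing S] [Algebra ℂ S] (U : Submodule ℂ S)
    (n : ℕ) (hn : 1 ≤ n) (α : ℂ) (x : S) (hx : x ∈ (U : Set S) ^ n) :
    α • x ∈ (U : Set S) ^ n := by
  obtain ⟨m, rfl⟩ : ∃ m, n = m + 1 := ⟨n - 1, by omega⟩
  rw [pow_succ] at hx ⊢
  obtain ⟨a, ha, b, hb, rfl⟩ := Set.mem_mul.mp hx
  rw [← mul_smul_comm]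
  exact Set.mul_mem_mul ha (U.smul_mem α hb)

open Pointwise in
theorem multiset_prod_mem_set_pow {S : Type*} [CommRing S] [Algebra ℂ S] (U : Submodule ℂ S)
    (s : Multiset S) (hs : ∀ x ∈ s, x ∈ U) : s.prod ∈ (U : Set S) ^ (Multiset.card s) := by
  induction s using Multiset.induction_on with
  | empty => simp
  | cons a s ih =>
    rw [Multiset.prod_cons, Multiset.card_cons, pow_succ']
    exact Set.mul_mem_mul (hs a (Multiset.mem_cons_self a s))
      (ih fun x hx => hs x (Multiset.mem_cons_of_mem hx))

theorem hom_id_scalar (s : Multiset ℂ) (t : ℂ) (n : ℕ) (hs : Multiset.card s = n)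
    (hp : (X ^ n + C t : ℂ[X]) = (s.map (fun ρ => X - C ρ)).prod) (a b : ℂ) :
    a ^ n + t * b ^ n = (s.map (fun ρ => a - ρ * b)).prod := by
  by_cases hb : b = 0
  · subst hb
    have hn : n = 0 ∨ n ≠ 0 := by omega
    rcases hn with rfl | hn
    · have : s = 0 := Multiset.card_eq_zero.mp hs
      subst this
      simp at hp
      simp [hp]
    · simp [hs, hn]
  · have h1 := congrArg (Polynomial.eval (a / b)) hp
    rw [Polynomial.eval_multiset_prod, Multiset.map_map] at h1
    simp only [eval_add, eval_pow, eval_X, eval_C, Function.comp, eval_sub] at h1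
    have h2 : (s.map (fun ρ => a - ρ * b)).prod = b ^ n * (s.map (fun ρ => a / b - ρ)).prod := by
      rw [← hs, ← Multiset.prod_replicate, ← Multiset.map_const', ← Multiset.prod_map_mul]
      congr 1
      refine Multiset.map_congr rfl fun ρ _ => ?_
      field_simp
    rw [h2, ← h1, div_pow, mul_add, mul_div_cancel₀ _ (pow_ne_zero n hb)]
    ring

theorem hom_id {S : Type*} [CommRing S] [Algebra ℂ S] (s : Multiset ℂ) (t : ℂ) (n : ℕ)
    (hs : Multiset.card s = n)
    (hp : (X ^ n + C t : ℂ[X]) = (s.map (fun ρ => X - C ρ)).prod) (l y : S) :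
    l ^ n + t • y ^ n = (s.map (fun ρ => l - ρ • y)).prod := by
  have key : (MvPolynomial.X 0 ^ n + MvPolynomial.C t * MvPolynomial.X 1 ^ n :
      MvPolynomial (Fin 2) ℂ) =
      (s.map (fun ρ => MvPolynomial.X 0 - MvPolynomial.C ρ * MvPolynomial.X 1)).prod := by
    apply MvPolynomial.funext
    intro x
    rw [map_multiset_prod, Multiset.map_map]
    simpa using hom_id_scalar s t n hs hp (x 0) (x 1)
  have h := congrArg (MvPolynomial.aeval ![l, y]) key
  rw [map_multiset_prod, Multiset.map_map] at h
  simpa [Algebra.smul_def] using h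

open Pointwise in
theorem binary_mem_pow {S : Type*} [CommRing S] [Algebra ℂ S] (U : Submodule ℂ S)
    (l y : S) (hl : l ∈ U) (hy : y ∈ U) (n : ℕ) (hn : 1 ≤ n) (α β : ℂ) :
    α • l ^ n + β • y ^ n ∈ (U : Set S) ^ n := by
  by_cases hα : α = 0
  · subst hα
    rw [zero_smul, zero_add]
    exact smul_mem_set_pow U n hn β _ (Set.pow_mem_pow hy)
  · set t : ℂ := β / α with ht
    have hmonic : (X ^ n + C t : ℂ[X]).Monic := monic_X_pow_add_C t (by omega)
    have hdeg : (X ^ n + C t : ℂ[X]).natDegree = n := natDegree_X_pow_add_C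
    have hsplit := IsAlgClosed.splits (X ^ n + C t : ℂ[X])
    have hprod : (X ^ n + C t : ℂ[X]) =
        ((X ^ n + C t : ℂ[X]).roots.map (fun ρ => X - C ρ)).prod :=
      hsplit.eq_prod_roots_of_monic hmonic
    have hcard : Multiset.card (X ^ n + C t : ℂ[X]).roots = n := by
      rw [← hsplit.natDegree_eq_card_roots, hdeg]
    have h := hom_id _ t n hcard hprod l y
    have e : α • l ^ n + β • y ^ n = α • (l ^ n + t • y ^ n) := by
      rw [smul_add, smul_smul, ht, mul_div_cancel₀ _ hα]
    rw [e, h]
    apply smul_mem_set_pow U n hn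
    have := multiset_prod_mem_set_pow U ((X ^ n + C t : ℂ[X]).roots.map (fun ρ => l - ρ • y)) ?_
    · rwa [Multiset.card_map, hcard] at this
    · intro x hx
      obtain ⟨ρ, _, rfl⟩ := Multiset.mem_map.mp hx
      exact U.sub_mem hl (U.smul_mem ρ hy)


end Claimed.Agent.R123.FH
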