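import Claimed.Agent.R123.FHBasic

/-!
Row 123 (S0248).  Core theorem `main` (merged version).
Pieces by helper489, helper956, helper174, helper473; design helper506.
-/

set_option autoImplicit false

namespace Claimed.Agent.R123.FH

open Finset Polynomial Pointwise

variable {S : Type*} [CommRing S] [Algebra ℂ S]

/-- span of `ε(f)^a`, `f` a product of `b` elements of `U` -/
def BB (U : Submodule ℂ S) (a b : ℕ) : Submodule ℂ (SymmetricAlgebra ℂ S) :=
  Submodule.span ℂ ((fun f => (SymmetricAlgebra.ι ℂ S f) ^ a) '' ((U : Set S) ^ b))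

/-- the algebra endomorphism of `Sym S` induced by multiplication by `y` on `S` -/
noncomputable def MM (y : S) : SymmetricAlgebra ℂ S →ₐ[ℂ] SymmetricAlgebra ℂ S :=
  SymmetricAlgebra.lift ((SymmetricAlgebra.ι ℂ S) ∘ₗ LinearMap.mulLeft ℂ y)

@[simp] theorem MM_ι (y f : S) :
    MM y (SymmetricAlgebra.ι ℂ S f) = SymmetricAlgebra.ι ℂ S (y * f) := by
  simp [MM]

/-- `ε (U^b)` -/
noncomputable def NN (U : Submodule ℂ S) (b : ℕ) : Submodule ℂ (SymmetricAlgebra ℂ S) :=
  (U ^ b).map (SymmetricAlgebra.ι ℂ S)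

/-- `ε (z * U^d)` -/
noncomputable def NU (U : Submodule ℂ S) (d : ℕ) (z : S) : Submodule ℂ (SymmetricAlgebra ℂ S) :=
  ((U ^ d).map (LinearMap.mulLeft ℂ z)).map (SymmetricAlgebra.ι ℂ S)





theorem MM_BB (U : Submodule ℂ S) (y : S) (hy : y ∈ U) (a b : ℕ) :
    (BB U a b).map (MM y).toLinearMap ≤ BB U a (b + 1) := by
  unfold BB
  rw [Submodule.map_span_le]
  rintro _ ⟨f, hf, rfl⟩
  apply Submodule.subset_span
  refine ⟨y * f, ?_, ?_⟩
  · rw [pow_succ']
    exact Set.mul_mem_mul hy hf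
  · simp

/-- (i) -/
theorem step_i (U : Submodule ℂ S) (n : ℕ) (hn : 1 ≤ n) (l : S) (hl : l ∈ U) (g : S)
    (hg : g ∈ U ^ n) :
    (SymmetricAlgebra.ι ℂ S (l ^ n)) ^ n * SymmetricAlgebra.ι ℂ S g ∈ BB U (n + 1) n := by
  set ε := SymmetricAlgebra.ι ℂ S with hε
  -- linear map g ↦ ε(l^n)^n * ε g
  let Φ : S →ₗ[ℂ] SymmetricAlgebra ℂ S := (LinearMap.mulLeft ℂ ((ε (l ^ n)) ^ n)) ∘ₗ ε
  have key : Submodule.span ℂ ((fun w => w ^ n) '' (U : Set S)) ≤ (BB U (n + 1) n).comap Φ := by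
    rw [Submodule.span_le]
    rintro _ ⟨y, hy, rfl⟩
    show Φ (y ^ n) ∈ BB U (n + 1) n
    show (ε (l ^ n)) ^ n * ε (y ^ n) ∈ BB U (n + 1) n
    let W : Submodule ℂ (SymmetricAlgebra ℂ S) :=
      (Submodule.span ℂ ({l ^ n, y ^ n} : Set S)).map ε
    have h1 : ε (l ^ n) ∈ W :=
      Submodule.mem_map_of_mem (Submodule.subset_span (by simp))
    have h2 : ε (y ^ n) ∈ W :=
      Submodule.mem_map_of_mem (Submodule.subset_span (by simp))
    have h3 : (ε (l ^ n)) ^ n * ε (y ^ n) ∈ W ^ (n + 1) := by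
      rw [pow_succ]
      exact Submodule.mul_mem_mul (Submodule.pow_mem_pow W h1 n) h2
    have h4 := pow_le_span_pow W (n + 1) h3
    refine (Submodule.span_le.2 ?_) h4
    rintro _ ⟨w, hw, rfl⟩
    obtain ⟨f, hf, rfl⟩ := hw
    obtain ⟨α, β, rfl⟩ := Submodule.mem_span_pair.1 hf
    apply Submodule.subset_span
    exact ⟨α • l ^ n + β • y ^ n, binary_mem_pow U l y hl hy n hn α β, rfl⟩
  exact key (pow_le_span_pow U n hg)





/-- the linear map `g ↦ X * ε g`. -/
noncomputable def mulEps (X : SymmetricAlgebra ℂ S) : S →ₗ[ℂ] SymmetricAlgebra ℂ S :=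
  (LinearMap.mulLeft ℂ X) ∘ₗ (SymmetricAlgebra.ι ℂ S)

theorem mulEps_apply (X : SymmetricAlgebra ℂ S) (g : S) :
    mulEps X g = X * SymmetricAlgebra.ι ℂ S g := rfl

/-- spanning: to show `X * ε g ∈ M` for all `g ∈ U^(m+c)` it is enough to treat `g = w^m * h'`. -/
theorem span_reduce (U : Submodule ℂ S) (m c : ℕ) (X : SymmetricAlgebra ℂ S)
    (M : Submodule ℂ (SymmetricAlgebra ℂ S))
    (h : ∀ w ∈ U, ∀ h' ∈ U ^ c, X * SymmetricAlgebra.ι ℂ S (w ^ m * h') ∈ M) :
    ∀ g ∈ U ^ (m + c), X * SymmetricAlgebra.ι ℂ S g ∈ M := by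
  have key : U ^ (m + c) ≤ M.comap (mulEps X) := by
    rw [pow_add, Submodule.mul_le]
    intro x hx h' hh'
    have h2 : U ^ m ≤ (M.comap (mulEps X)).comap (LinearMap.mulRight ℂ h') := by
      refine (pow_le_span_pow U m).trans ?_
      rw [Submodule.span_le]
      rintro _ ⟨w, hw, rfl⟩
      exact h w hw h' hh'
    exact h2 hx
  intro g hg
  exact key hg

/-- (ii) -/
theorem step_ii (U : Submodule ℂ S) (n : ℕ) (hn : 1 ≤ n) (l : S) (hl : l ∈ U) (c : ℕ) :
    ∀ f₀ ∈ (U : Set S) ^ c, ∀ g ∈ U ^ (c + n),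
    (SymmetricAlgebra.ι ℂ S (l ^ n * f₀)) ^ n * SymmetricAlgebra.ι ℂ S g ∈ BB U (n + 1) (c + n) := by
  induction c with
  | zero =>
    intro f₀ hf₀ g hg
    rw [pow_zero, Set.mem_one] at hf₀
    subst hf₀
    rw [zero_add] at hg ⊢
    rw [mul_one]
    exact step_i U n hn l hl g hg
  | succ c ih =>
    intro f₀ hf₀ g hg
    rw [pow_succ, Set.mem_mul] at hf₀
    obtain ⟨f₀', hf₀', lam, hlam, rfl⟩ := hf₀
    have hlam' : lam ∈ U := hlam
    set F : S := l ^ n * f₀' with hF
    -- consequence of the induction hypothesis and `MM_BB`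
    have step : ∀ y ∈ U, ∀ g'' ∈ U ^ (c + n),
        (SymmetricAlgebra.ι ℂ S (y * F)) ^ n * SymmetricAlgebra.ι ℂ S (y * g'')
          ∈ BB U (n + 1) (c + 1 + n) := by
      intro y hy g'' hg''
      have h1 := ih f₀' hf₀' g'' hg''
      have h2 : (MM y).toLinearMap ((SymmetricAlgebra.ι ℂ S (l ^ n * f₀')) ^ n
          * SymmetricAlgebra.ι ℂ S g'') ∈ BB U (n + 1) (c + n + 1) :=
        MM_BB U y hy (n + 1) (c + n) (Submodule.mem_map_of_mem h1)
      have h3 : c + 1 + n = c + n + 1 := by omega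
      rw [h3]
      simpa using h2
    have hmain : ∀ w ∈ U, ∀ h' ∈ U ^ c,
        (SymmetricAlgebra.ι ℂ S (lam * F)) ^ n * SymmetricAlgebra.ι ℂ S (w ^ (1 + n) * h')
          ∈ BB U (n + 1) (c + 1 + n) := by
      intro w hw h' hh'
      have := elim_poly (SymmetricAlgebra.ι ℂ S) (BB U (n + 1) (c + 1 + n)) lam w h' 1 n
        ((C (SymmetricAlgebra.ι ℂ S (lam * F)) + X * C (SymmetricAlgebra.ι ℂ S (w * F))) ^ n)
        ?_ 1 ?_
      · have e0 : ((C (SymmetricAlgebra.ι ℂ S (lam * F))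
            + X * C (SymmetricAlgebra.ι ℂ S (w * F))) ^ n).coeff 0
            = (SymmetricAlgebra.ι ℂ S (lam * F)) ^ n := by
          rw [coeff_zero_eq_eval_zero]
          simp only [eval_pow, eval_add, eval_C, eval_mul, eval_X, zero_mul, add_zero]
        rw [e0, mul_one] at this
        exact this
      · refine (natDegree_pow_le).trans ?_
        have : (C (SymmetricAlgebra.ι ℂ S (lam * F)) + X * C (SymmetricAlgebra.ι ℂ S (w * F))
            : (SymmetricAlgebra ℂ S)[X]).natDegree ≤ 1 := by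
          refine (natDegree_add_le _ _).trans ?_
          rw [max_le_iff]
          refine ⟨by simp, ?_⟩
          refine (natDegree_mul_le).trans ?_
          have h1 : (X : (SymmetricAlgebra ℂ S)[X]).natDegree ≤ 1 := natDegree_X_le
          have h2 : (C (SymmetricAlgebra.ι ℂ S (w * F)) : (SymmetricAlgebra ℂ S)[X]).natDegree = 0 :=
            natDegree_C _
          omega
        calc n * _ ≤ n * 1 := Nat.mul_le_mul_left n this
          _ = n := mul_one n
      · intro t α β hαβ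
        have hy : lam + t • w ∈ U := U.add_mem hlam' (U.smul_mem t hw)
        have hg'' : lam ^ α * w ^ β * h' ∈ U ^ (c + n) := by
          rw [add_comm c n, ← hαβ, pow_add, pow_add]
          exact Submodule.mul_mem_mul (Submodule.mul_mem_mul (Submodule.pow_mem_pow U hlam' α)
            (Submodule.pow_mem_pow U hw β)) hh'
        have h1 := step _ hy _ hg''
        have e1 : eval (algebraMap ℂ (SymmetricAlgebra ℂ S) t)
            ((C (SymmetricAlgebra.ι ℂ S (lam * F)) + X * C (SymmetricAlgebra.ι ℂ S (w * F))) ^ n)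
            = (SymmetricAlgebra.ι ℂ S ((lam + t • w) * F)) ^ n := by
          simp only [eval_pow, eval_add, eval_C, eval_mul, eval_X]
          congr 1
          rw [add_mul, map_add, smul_mul_assoc, map_smul, Algebra.smul_def]
        rw [e1, pow_one, mul_one]
        exact h1
    have hfin := span_reduce U (1 + n) c ((SymmetricAlgebra.ι ℂ S (lam * F)) ^ n)
      (BB U (n + 1) (c + 1 + n)) hmain g (by
        have h3 : 1 + n + c = c + 1 + n := by omega
        rw [h3]; exact hg)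
    have e2 : l ^ n * (f₀' * lam) = lam * F := by rw [hF]; ring
    rw [e2]
    exact hfin

/-- (iii) -/
theorem step_iii (U : Submodule ℂ S) (n : ℕ) (hn : 1 ≤ n) (c : ℕ)
    (hT : (NN U c) ^ n ≤ BB U n c) (l : S) (hl : l ∈ U) :
    (NU U c (l ^ n)) ^ n * NN U (c + n) ≤ BB U (n + 1) (c + n) := by
  set ε := SymmetricAlgebra.ι ℂ S with hε
  have hmap : (NN U c).map (MM (l ^ n)).toLinearMap = NU U c (l ^ n) := by
    unfold NN NU
    rw [← Submodule.map_comp, ← Submodule.map_comp]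
    congr 1
    ext f
    simp
  have h1 : (NU U c (l ^ n)) ^ n ≤ (BB U n c).map (MM (l ^ n)).toLinearMap := by
    rw [← hmap, ← Submodule.map_pow]
    exact Submodule.map_mono hT
  rw [Submodule.mul_le]
  intro X hX Y hY
  obtain ⟨g, hg, rfl⟩ := hY
  have hX' := h1 hX
  let Ψ : SymmetricAlgebra ℂ S →ₗ[ℂ] SymmetricAlgebra ℂ S :=
    (LinearMap.mulRight ℂ (ε g)) ∘ₗ (MM (l ^ n)).toLinearMap
  have key : BB U n c ≤ (BB U (n + 1) (c + n)).comap Ψ := by
    conv_lhs => unfold BB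
    rw [Submodule.span_le]
    rintro _ ⟨f₀, hf₀, rfl⟩
    show Ψ ((SymmetricAlgebra.ι ℂ S f₀) ^ n) ∈ BB U (n + 1) (c + n)
    have := step_ii U n hn l hl c f₀ hf₀ g hg
    simpa [Ψ] using this
  obtain ⟨Z, hZ, rfl⟩ := hX'
  exact key hZ





/-- the polynomial curve `t ↦ ε ((u + t w)^k h)` -/
theorem lift_one (k : ℕ) (u w h : S) :
    ∃ P : (SymmetricAlgebra ℂ S)[X], P.natDegree ≤ k ∧
      P.coeff 0 = SymmetricAlgebra.ι ℂ S (u ^ k * h) ∧
      ∀ t : ℂ, P.eval (algebraMap ℂ _ t) = SymmetricAlgebra.ι ℂ S ((u + t • w) ^ k * h) := by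
  refine ⟨∑ m ∈ range (k + 1),
    C (SymmetricAlgebra.ι ℂ S (w ^ m * u ^ (k - m) * (k.choose m : S) * h)) * X ^ m, ?_, ?_, ?_⟩
  · refine natDegree_sum_le_of_forall_le _ _ fun m hm => ?_
    refine (natDegree_C_mul_X_pow_le _ _).trans ?_
    have := mem_range.1 hm
    omega
  · rw [finsetSum_coeff]
    rw [Finset.sum_eq_single 0]
    · simp
    · intro m _ hm
      rw [coeff_C_mul_X_pow]
      simp [hm.symm]
    · intro h0
      exact absurd (mem_range.2 (Nat.succ_pos k)) h0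
  · intro t
    rw [eval_finsetSum, add_comm u, add_pow, Finset.sum_mul, map_sum]
    refine Finset.sum_congr rfl fun m _ => ?_
    rw [eval_mul, eval_C, eval_pow, eval_X, ← map_pow, mul_comm, ← Algebra.smul_def, ← map_smul,
      _root_.smul_pow]
    congr 1
    simp only [Algebra.smul_mul_assoc]


/-- Lemma Lift -/
theorem lift_poly (U : Submodule ℂ S) (k d : ℕ) (u w : S) (i : ℕ)
    (X : SymmetricAlgebra ℂ S) (hX : X ∈ (NU U d (u ^ k)) ^ i) :
    ∃ C' : (SymmetricAlgebra ℂ S)[X], C'.natDegree ≤ i * k ∧ C'.coeff 0 = X ∧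
      ∀ t : ℂ, C'.eval (algebraMap ℂ _ t) ∈ (NU U d ((u + t • w) ^ k)) ^ i := by
  induction hX using Submodule.pow_induction_on_left' with
  | algebraMap r =>
    refine ⟨C (algebraMap ℂ _ r), by simp, by simp, fun t => ?_⟩
    rw [eval_C, pow_zero]
    exact Submodule.algebraMap_mem r
  | add x y i hx hy ihx ihy =>
    obtain ⟨P, hP1, hP2, hP3⟩ := ihx
    obtain ⟨Q, hQ1, hQ2, hQ3⟩ := ihy
    refine ⟨P + Q, (natDegree_add_le _ _).trans (max_le hP1 hQ1), by simp [hP2, hQ2], fun t => ?_⟩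
    rw [eval_add]
    exact add_mem (hP3 t) (hQ3 t)
  | mem_mul m hm i x hx ih =>
    obtain ⟨P, hP1, hP2, hP3⟩ := ih
    obtain ⟨z, hz, rfl⟩ := (Submodule.mem_map).1 hm
    obtain ⟨h, hh, rfl⟩ := (Submodule.mem_map).1 hz
    obtain ⟨Q, hQ1, hQ2, hQ3⟩ := lift_one k u w h
    refine ⟨Q * P, ?_, ?_, fun t => ?_⟩
    · refine natDegree_mul_le.trans ?_
      have : (i + 1) * k = k + i * k := by ring
      rw [Nat.succ_eq_add_one, this]
      exact add_le_add hQ1 hP1
    · rw [mul_coeff_zero, hQ2, hP2]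
      rfl
    · rw [eval_mul, hQ3 t, Nat.succ_eq_add_one, pow_succ']
      refine Submodule.mul_mem_mul ?_ (hP3 t)
      exact Submodule.mem_map_of_mem (Submodule.mem_map.2 ⟨h, hh, rfl⟩)


/-- (iv), one descent step; `d = j*k+e`, `b = d + k`. -/
theorem descend (U : Submodule ℂ S) (k j e r : ℕ) (M : Submodule ℂ (SymmetricAlgebra ℂ S))
    (H : ∀ u ∈ U, (NU U (j * k + e) (u ^ k)) ^ (j + 1) * (NN U (j * k + e + k)) ^ r ≤ M) :
    ∀ u ∈ U, (NU U (j * k + e) (u ^ k)) ^ j * (NN U (j * k + e + k)) ^ (r + 1) ≤ M := by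
  intro u hu
  -- Step A
  have stepA : ∀ X ∈ (NU U (j * k + e) (u ^ k)) ^ j, ∀ G ∈ (NN U (j * k + e + k)) ^ r,
      ∀ w ∈ U, ∀ h' ∈ U ^ e,
      X * SymmetricAlgebra.ι ℂ S (w ^ (k + j * k) * h') * G ∈ M := by
    intro X hX G hG w hw h' hh'
    obtain ⟨C', hdeg, hc0, hev⟩ := lift_poly U k (j * k + e) u w j X hX
    have := elim_poly (SymmetricAlgebra.ι ℂ S) M u w h' k (j * k) C' hdeg G ?_
    · rwa [hc0] at this
    · intro t α β hαβ
      have hut : u + t • w ∈ U := add_mem hu (U.smul_mem t hw)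
      refine H (u + t • w) hut (Submodule.mul_mem_mul ?_ hG)
      rw [pow_succ]
      refine Submodule.mul_mem_mul (hev t) ?_
      refine Submodule.mem_map_of_mem (Submodule.mem_map.2 ⟨u ^ α * w ^ β * h', ?_, rfl⟩)
      rw [← hαβ, pow_add, pow_add]
      exact Submodule.mul_mem_mul (Submodule.mul_mem_mul (Submodule.pow_mem_pow U hu α)
        (Submodule.pow_mem_pow U hw β)) hh'
  -- Step B
  have stepB : ∀ X ∈ (NU U (j * k + e) (u ^ k)) ^ j, ∀ G ∈ (NN U (j * k + e + k)) ^ r,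
      ∀ g ∈ U ^ (j * k + e + k), X * SymmetricAlgebra.ι ℂ S g * G ∈ M := by
    intro X hX G hG
    let φ : S →ₗ[ℂ] SymmetricAlgebra ℂ S :=
      (LinearMap.mulRight ℂ G) ∘ₗ (LinearMap.mulLeft ℂ X) ∘ₗ (SymmetricAlgebra.ι ℂ S)
    have hle : U ^ (j * k + e + k) ≤ M.comap φ := by
      have e1 : j * k + e + k = (k + j * k) + e := by ring
      rw [e1, pow_add, Submodule.mul_le]
      intro m hm h' hh'
      have h2 : U ^ (k + j * k) ≤ (M.comap φ).comap (LinearMap.mulRight ℂ h') := by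
        refine (pow_le_span_pow U _).trans (Submodule.span_le.2 ?_)
        rintro _ ⟨w, hw, rfl⟩
        exact stepA X hX G hG w hw h' hh'
      exact h2 hm
    intro g hg
    exact hle hg
  -- Step C
  rw [pow_succ', Submodule.mul_le]
  intro X hX Z hZ
  induction hZ using Submodule.mul_induction_on' with
  | mem_mul_mem n hn G hG =>
    obtain ⟨g, hg, rfl⟩ := Submodule.mem_map.1 hn
    rw [← mul_assoc]
    exact stepB X hX G hG g hg
  | add x hx y hy ihx ihy =>
    rw [mul_add]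
    exact add_mem ihx ihy





theorem main_one (U : Submodule ℂ S) (b : ℕ) : (NN U b) ^ 1 ≤ BB U 1 b := by
  rw [pow_one, NN, BB, Submodule.pow_eq_span_pow_set, Submodule.map_span]
  apply Submodule.span_mono
  rintro _ ⟨f, hf, rfl⟩
  exact ⟨f, hf, by simp⟩

theorem main_step (U : Submodule ℂ S) (n : ℕ) (hn : 1 ≤ n) (c : ℕ) (hc : n * n ≤ c)
    (hT : (NN U c) ^ n ≤ BB U n c) :
    (NN U (c + n)) ^ (n + 1) ≤ BB U (n + 1) (c + n) := by
  have Q : ∀ i, i ≤ n → ∀ u ∈ U,
      (NU U c (u ^ n)) ^ (n - i) * (NN U (c + n)) ^ (i + 1) ≤ BB U (n + 1) (c + n) := by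
    intro i
    induction i with
    | zero =>
      intro _ u hu
      simpa using step_iii U n hn c hT u hu
    | succ i ih =>
      intro hi u hu
      have hjn : (n - (i + 1)) * n ≤ c :=
        le_trans (Nat.mul_le_mul_right n (Nat.sub_le n (i + 1))) hc
      obtain ⟨e, he⟩ := Nat.exists_eq_add_of_le hjn
      have hsucc : n - (i + 1) + 1 = n - i := by omega
      have := descend U n (n - (i + 1)) e (i + 1) (BB U (n + 1) (c + n))
        (by
          rw [← he, hsucc]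
          exact ih (by omega)) u hu
      rw [← he] at this
      exact this
  have := Q n le_rfl 0 U.zero_mem
  simpa using this

theorem main (U : Submodule ℂ S) (a : ℕ) (ha : 1 ≤ a) :
    ∀ b, a * (a - 1) ≤ b → (NN U b) ^ a ≤ BB U a b := by
  induction a, ha using Nat.le_induction with
  | base => intro b _; exact main_one U b
  | succ n hn ih =>
    intro b hb
    have hb' : (n + 1) * n ≤ b := by simpa using hb
    have hnb : n ≤ b := le_trans (Nat.le_mul_of_pos_left n (Nat.succ_pos n)) hb'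
    obtain ⟨c, rfl⟩ := Nat.exists_eq_add_of_le' hnb
    have hc : n * n ≤ c := by
      have : (n + 1) * n = n * n + n := by ring
      omega
    have hc' : n * (n - 1) ≤ c := le_trans (Nat.mul_le_mul_left n (Nat.sub_le n 1)) hc
    exact main_step U n hn c hc (ih c hc')


end Claimed.Agent.R123.FH
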