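import Claimed.Agent.R123.H103Shell
import Claimed.Agent.R123.FHCore

/-!
Adaptor (by helper103): `FH.main` implies `H103.CoreStatement`, hence S0248.
-/

set_option autoImplicit false

open Claims.C0212.Problem346
open scoped BigOperators Pointwise

universe u

namespace Claimed.Agent.R123.FH

open Claimed.Agent.R123.H103

variable (V : Type u) [AddCommGroup V] [Module ℂ V]

theorem range_iota_pow_set (b : ℕ) :
    ((LinearMap.range (SymmetricAlgebra.ι ℂ V) : Submodule ℂ (SA V)) : Set (SA V)) ^ b =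
      Set.range (symMonomialRaw b V) := by
  ext x
  rw [Set.mem_pow_iff_prod]
  constructor
  · rintro ⟨f, hf, rfl⟩
    choose s hs using hf
    exact ⟨s, by simp [symMonomialRaw, hs]⟩
  · rintro ⟨s, rfl⟩
    exact ⟨fun j => SymmetricAlgebra.ι ℂ V (s j), fun j => ⟨s j, rfl⟩, rfl⟩

theorem symPowSubmodule_eq_pow (b : ℕ) :
    symPowSubmodule b V = (LinearMap.range (SymmetricAlgebra.ι ℂ V)) ^ b := by
  rw [Submodule.pow_eq_span_pow_set, range_iota_pow_set]
  rfl

theorem prod_mem_submodule_pow {A : Type*} [CommRing A] [Algebra ℂ A] (N : Submodule ℂ A)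
    {κ : Type*} (s : Finset κ) (x : κ → A) (hx : ∀ k ∈ s, x k ∈ N) :
    ∏ k ∈ s, x k ∈ N ^ s.card := by
  classical
  induction s using Finset.induction_on with
  | empty => simp [Submodule.one_le.1 le_rfl]
  | insert k s hk ih =>
    rw [Finset.prod_insert hk, Finset.card_insert_of_notMem hk, pow_succ']
    exact Submodule.mul_mem_mul (hx k (Finset.mem_insert_self k s))
      (ih fun j hj => hx j (Finset.mem_insert_of_mem hj))

theorem core_of_le (a b : ℕ)
    (h : (NN (LinearMap.range (SymmetricAlgebra.ι ℂ V)) b) ^ a ≤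
      BB (LinearMap.range (SymmetricAlgebra.ι ℂ V)) a b) : CoreStatement V a b := by
  intro f hf
  have h1 : ∏ k, SymmetricAlgebra.ι ℂ (SA V) (f k) ∈
      (NN (LinearMap.range (SymmetricAlgebra.ι ℂ V)) b) ^ a := by
    have := prod_mem_submodule_pow (NN (LinearMap.range (SymmetricAlgebra.ι ℂ V)) b) Finset.univ
      (fun k : Fin a => SymmetricAlgebra.ι ℂ (SA V) (f k)) (fun k _ => by
        refine ⟨f k, ?_, rfl⟩
        have := hf k
        rw [symPowSubmodule_eq_pow] at this
        exact this)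
    simpa using this
  have h2 := h h1
  unfold BB at h2
  rw [range_iota_pow_set] at h2
  refine Submodule.span_mono ?_ h2
  rintro _ ⟨_, ⟨s, rfl⟩, rfl⟩
  exact ⟨s, rfl⟩

theorem final (a b : ℕ) (ha : 2 ≤ a) (hb : a * (a - 1) ≤ b) :
    ∃ μ : SymPow b (SymPow a V) →ₗ[ℂ] SymPow a (SymPow b V),
      IsFoulkesMap a b V μ ∧ Function.Surjective μ ∧
        ∀ ν : SymPow b (SymPow a V) →ₗ[ℂ] SymPow a (SymPow b V), IsFoulkesMap a b V ν → ν = μ :=
  main_of_core V a b (core_of_le V a b (main _ a (by omega) b hb))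

end Claimed.Agent.R123.FH
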