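import Claimed.Prelude.Def_0212

/-!
Outer shell for S0248 (row 123): existence / uniqueness of the Foulkes map and reduction of
surjectivity to a single "core" statement inside `SymmetricAlgebra ℂ (SymmetricAlgebra ℂ V)`.
-/

set_option autoImplicit false

open Claims.C0212.Problem346
open scoped BigOperators TensorProduct

universe u v w

namespace Claimed.Agent.R123.H103

noncomputable section

/-! ### A general span lemma for multilinear maps -/

theorem multilinear_mem_span_aux {ι : Type v} [Fintype ι] [DecidableEq ι] {W M : Type*}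
    [AddCommGroup W] [Module ℂ W] [AddCommGroup M] [Module ℂ M]
    (F : MultilinearMap ℂ (fun _ : ι => W) M) (X : Set W) (s : Finset ι) :
    ∀ w : ι → W, (∀ j ∈ s, w j ∈ Submodule.span ℂ X) → (∀ j ∉ s, w j ∈ X) →
      F w ∈ Submodule.span ℂ (F '' {x | ∀ j, x j ∈ X}) := by
  induction s using Finset.induction_on with
  | empty =>
    intro w _ hw
    exact Submodule.subset_span ⟨w, fun j => hw j (by simp), rfl⟩
  | insert j s hj ih =>
    intro w hw hw'
    have key : ∀ z ∈ Submodule.span ℂ X,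
        F (Function.update w j z) ∈ Submodule.span ℂ (F '' {x | ∀ j, x j ∈ X}) := by
      intro z hz
      induction hz using Submodule.span_induction with
      | mem z hz =>
        apply ih
        · intro i hi
          have : i ≠ j := fun h => hj (h ▸ hi)
          rw [Function.update_of_ne this]
          exact hw i (Finset.mem_insert_of_mem hi)
        · intro i hi
          by_cases hij : i = j
          · subst hij; simpa using hz
          · rw [Function.update_of_ne hij]
            exact hw' i (by simp [hij, hi])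
      | zero => rw [F.map_update_zero]; exact Submodule.zero_mem _
      | add x y _ _ hx hy => rw [F.map_update_add]; exact Submodule.add_mem _ hx hy
      | smul c x _ hx => rw [F.map_update_smul]; exact Submodule.smul_mem _ c hx
    have := key (w j) (hw j (Finset.mem_insert_self j s))
    rwa [Function.update_eq_self] at this

theorem multilinear_mem_span {ι : Type v} [Fintype ι] [DecidableEq ι] {W M : Type*}
    [AddCommGroup W] [Module ℂ W] [AddCommGroup M] [Module ℂ M]
    (F : MultilinearMap ℂ (fun _ : ι => W) M) (X : Set W) (w : ι → W)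
    (hw : ∀ j, w j ∈ Submodule.span ℂ X) :
    F w ∈ Submodule.span ℂ (F '' {x | ∀ j, x j ∈ X}) :=
  multilinear_mem_span_aux F X Finset.univ w (fun j _ => hw j) (fun j hj => absurd (Finset.mem_univ j) hj)

/-- `symMonomialRaw` as a multilinear map. -/
def monoML (n : ℕ) (W : Type v) [AddCommGroup W] [Module ℂ W] :
    MultilinearMap ℂ (fun _ : Fin n => W) (SymmetricAlgebra ℂ W) :=
  (MultilinearMap.mkPiAlgebra ℂ (Fin n) (SymmetricAlgebra ℂ W)).compLinearMap
    (fun _ => SymmetricAlgebra.ι ℂ W)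

@[simp] theorem monoML_apply (n : ℕ) (W : Type v) [AddCommGroup W] [Module ℂ W] (w : Fin n → W) :
    monoML n W w = symMonomialRaw n W w := by
  simp [monoML, symMonomialRaw]


theorem span_symMonomial_eq_top (n : ℕ) (W : Type v) [AddCommGroup W] [Module ℂ W] :
    Submodule.span ℂ (Set.range (symMonomial n W)) = ⊤ := by
  have h : Set.range (symMonomial n W) =
      ((↑) : Submodule.span ℂ (Set.range (symMonomialRaw n W)) → SymmetricAlgebra ℂ W) ⁻¹'
        (Set.range (symMonomialRaw n W)) := by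
    ext x
    constructor
    · rintro ⟨w, rfl⟩
      exact ⟨w, rfl⟩
    · rintro ⟨w, hw⟩
      exact ⟨w, Subtype.ext hw⟩
  rw [h]
  exact Submodule.span_span_coe_preimage

variable (V : Type u) [AddCommGroup V] [Module ℂ V]

/-- monomials of monomials, as elements of the ambient symmetric algebra. -/
def monoMono (a b : ℕ) (v : Fin b → Fin a → V) : SymmetricAlgebra ℂ (SymPow a V) :=
  symMonomialRaw b (SymPow a V) (fun j => symMonomial a V (v j))

theorem symPow_le_span_monoMono (a b : ℕ) :
    symPowSubmodule b (SymPow a V) ≤ Submodule.span ℂ (Set.range (monoMono V a b)) := by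
  refine Submodule.span_le.2 ?_
  rintro _ ⟨w, rfl⟩
  have h := multilinear_mem_span (monoML b (SymPow a V)) (Set.range (symMonomial a V)) w
    (fun j => by rw [span_symMonomial_eq_top]; trivial)
  rw [monoML_apply] at h
  refine Submodule.span_mono ?_ h
  rintro _ ⟨x, hx, rfl⟩
  choose v hv using hx
  refine ⟨v, ?_⟩
  rw [monoML_apply]
  unfold monoMono
  congr 1
  funext j
  exact hv j

theorem monoMono_mem (a b : ℕ) (v : Fin b → Fin a → V) :
    monoMono V a b v ∈ symPowSubmodule b (SymPow a V) :=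
  Submodule.subset_span ⟨_, rfl⟩

theorem span_monoMono (a b : ℕ) :
    Submodule.span ℂ (Set.range (monoMono V a b)) = symPowSubmodule b (SymPow a V) := by
  apply le_antisymm
  · rw [Submodule.span_le]
    rintro _ ⟨v, rfl⟩
    exact monoMono_mem V a b v
  · exact symPow_le_span_monoMono V a b

/-- Two linear maps on `SymPow b (SymPow a V)` agreeing on monomials of monomials are equal. -/
theorem ext_monoMono {M : Type*} [AddCommGroup M] [Module ℂ M] (a b : ℕ)
    (f g : SymPow b (SymPow a V) →ₗ[ℂ] M)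
    (h : ∀ v : Fin b → Fin a → V,
      f (symMonomial b (SymPow a V) (fun j => symMonomial a V (v j))) =
      g (symMonomial b (SymPow a V) (fun j => symMonomial a V (v j)))) : f = g := by
  ext ⟨x, hx⟩
  have hx' := symPow_le_span_monoMono V a b hx
  induction hx' using Submodule.span_induction with
  | mem x hx' =>
    obtain ⟨v, rfl⟩ := hx'
    exact h v
  | zero =>
    have : (⟨0, hx⟩ : SymPow b (SymPow a V)) = 0 := rfl
    rw [this, map_zero, map_zero]
  | add x y hx1 hy1 ihx ihy =>
    have hx2 : x ∈ symPowSubmodule b (SymPow a V) := by rw [← span_monoMono]; exact hx1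
    have hy2 : y ∈ symPowSubmodule b (SymPow a V) := by rw [← span_monoMono]; exact hy1
    have : (⟨x + y, hx⟩ : SymPow b (SymPow a V)) = ⟨x, hx2⟩ + ⟨y, hy2⟩ := rfl
    rw [this, map_add, map_add, ihx hx2, ihy hy2]
  | smul c x hx1 ihx =>
    have hx2 : x ∈ symPowSubmodule b (SymPow a V) := by rw [← span_monoMono]; exact hx1
    have : (⟨c • x, hx⟩ : SymPow b (SymPow a V)) = c • ⟨x, hx2⟩ := rfl
    rw [this, map_smul, map_smul, ihx hx2]


/-! ### The algebra `T = S^{⊗ a}` and the linear map `Ω` -/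

/-- `S(V)`. -/
abbrev SA : Type u := SymmetricAlgebra ℂ V

/-- `T = S(V)^{⊗ a}`. -/
abbrev TA (a : ℕ) : Type u := ⨂[ℂ] (_ : Fin a), SymmetricAlgebra ℂ V

/-- evaluation at the `k`-th point. -/
abbrev yy (a : ℕ) (k : Fin a) : SA V →ₐ[ℂ] TA V a :=
  PiTensorProduct.singleAlgHom (R := ℂ) (A := fun _ : Fin a => SymmetricAlgebra ℂ V) k

theorem prod_yy (a : ℕ) (f : Fin a → SA V) :
    ∏ k, yy V a k (f k) = PiTensorProduct.tprod ℂ f := by
  simp only [yy, PiTensorProduct.singleAlgHom_apply]
  rw [← PiTensorProduct.tprod_prod]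
  congr 1
  exact Finset.univ_prod_mulSingle f

/-- `Ω : T → S(S(V))`, `f₁ ⊗ ⋯ ⊗ f_a ↦ ι f₁ ⋯ ι f_a`. -/
def Om (a : ℕ) : TA V a →ₗ[ℂ] SymmetricAlgebra ℂ (SA V) :=
  PiTensorProduct.lift (monoML a (SA V))

theorem Om_prod_yy (a : ℕ) (f : Fin a → SA V) :
    Om V a (∏ k, yy V a k (f k)) = ∏ k, SymmetricAlgebra.ι ℂ (SA V) (f k) := by
  rw [prod_yy, Om, PiTensorProduct.lift.tprod, monoML_apply]
  rfl

/-! ### The polarisation map `φ` -/

/-- the exponent vector `(1,…,1)`. -/
def allOnes (a : ℕ) : Fin a →₀ ℕ := ∑ k : Fin a, Finsupp.single k 1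

theorem sum_single_eq_allOnes_iff (a : ℕ) (κ : Fin a → Fin a) :
    (∑ i : Fin a, Finsupp.single (κ i) 1) = allOnes a ↔ Function.Bijective κ := by
  constructor
  · intro h
    rw [← Finite.surjective_iff_bijective]
    intro k
    by_contra hk
    push Not at hk
    have := congrArg (fun f => f k) h
    simp only [allOnes, Finsupp.coe_finsetSum, Finset.sum_apply, Finsupp.single_apply] at this
    rw [Finset.sum_eq_zero (fun i _ => by simp [hk i])] at this
    simp at this
  · intro h
    exact (Equiv.ofBijective κ h).sum_comp (fun k => Finsupp.single k 1)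

/-- coefficient of `X₁⋯X_a` in a product of `a` linear forms. -/
theorem coeff_allOnes_prod {A : Type*} [CommRing A] (a : ℕ) (c : Fin a → Fin a → A) :
    MvPolynomial.coeff (allOnes a) (∏ i : Fin a, ∑ k : Fin a, MvPolynomial.C (c i k) * MvPolynomial.X k)
      = ∑ σ : Equiv.Perm (Fin a), ∏ i, c i (σ i) := by
  classical
  rw [Finset.prod_univ_sum, Fintype.piFinset_univ, MvPolynomial.coeff_sum]
  have h1 : ∀ κ : Fin a → Fin a,
      MvPolynomial.coeff (allOnes a) (∏ i : Fin a, (MvPolynomial.C (c i (κ i)) * MvPolynomial.X (κ i) : MvPolynomial (Fin a) A))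
        = if Function.Bijective κ then ∏ i, c i (κ i) else 0 := by
    intro κ
    have : (∏ i : Fin a, (MvPolynomial.C (c i (κ i)) * MvPolynomial.X (κ i) : MvPolynomial (Fin a) A))
        = MvPolynomial.monomial (∑ i : Fin a, Finsupp.single (κ i) 1) (∏ i, c i (κ i)) := by
      rw [MvPolynomial.monomial_sum_index, Finset.prod_mul_distrib, map_prod]
      rfl
    rw [this, MvPolynomial.coeff_monomial]
    simp only [sum_single_eq_allOnes_iff]
  simp only [h1]
  rw [← Finset.sum_filter]
  exact Finset.sum_bij (fun p h ↦ Equiv.ofBijective p (Finset.mem_filter.1 h).2) (fun _ _ ↦ Finset.mem_univ _)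
        (fun _ _ _ _ h ↦ by injection h)
        (fun b _ ↦ ⟨b, Finset.mem_filter.2 ⟨Finset.mem_univ _, b.bijective⟩, Equiv.coe_fn_injective rfl⟩) fun _ _ ↦ rfl


/-- the linear map `v ↦ ∑ₖ v(yₖ) Xₖ`. -/
def deltaLin (a : ℕ) : V →ₗ[ℂ] MvPolynomial (Fin a) (TA V a) :=
  ∑ k : Fin a, (LinearMap.mulRight ℂ (MvPolynomial.X k : MvPolynomial (Fin a) (TA V a))) ∘ₗ
    (IsScalarTower.toAlgHom ℂ (TA V a) (MvPolynomial (Fin a) (TA V a))).toLinearMap ∘ₗ
    (yy V a k).toLinearMap ∘ₗ SymmetricAlgebra.ι ℂ V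

theorem deltaLin_apply (a : ℕ) (v : V) :
    deltaLin V a v = ∑ k : Fin a, MvPolynomial.C (yy V a k (SymmetricAlgebra.ι ℂ V v)) * MvPolynomial.X k := by
  simp [deltaLin, MvPolynomial.algebraMap_eq]

/-- coefficient of `X₁⋯X_a` as a `ℂ`-linear map. -/
def coeffLin (a : ℕ) : MvPolynomial (Fin a) (TA V a) →ₗ[ℂ] TA V a where
  toFun p := MvPolynomial.coeff (allOnes a) p
  map_add' := by intro p q; simp
  map_smul' := by intro c p; simp [MvPolynomial.coeff_smul]

/-- `φ_raw : S(V) → T`: coefficient of `X₁⋯X_a` in the image under `v ↦ ∑ₖ v(yₖ) Xₖ`. -/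
def phiRaw (a : ℕ) : SA V →ₗ[ℂ] TA V a :=
  (coeffLin V a) ∘ₗ (SymmetricAlgebra.lift (deltaLin V a)).toLinearMap

theorem phiRaw_mono (a : ℕ) (v : Fin a → V) :
    phiRaw V a (symMonomialRaw a V v) =
      ∑ σ : Equiv.Perm (Fin a), ∏ i, yy V a i (SymmetricAlgebra.ι ℂ V (v (σ i))) := by
  simp only [phiRaw, symMonomialRaw, LinearMap.comp_apply, AlgHom.toLinearMap_apply, map_prod,
    SymmetricAlgebra.lift_ι_apply, deltaLin_apply]
  change MvPolynomial.coeff (allOnes a) _ = _
  rw [coeff_allOnes_prod]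
  refine Fintype.sum_equiv (Equiv.inv _) _ _ (fun σ => ?_)
  rw [← (σ : Fin a ≃ Fin a).symm.prod_comp]
  simp


instance instTowerTA (a : ℕ) : IsScalarTower ℂ (TA V a) (TA V a) :=
  IsScalarTower.right (R := ℂ) (A := TA V a)

instance instCommClassTA (a : ℕ) : SMulCommClass ℂ (TA V a) (TA V a) :=
  Algebra.to_smulCommClass (R := ℂ) (A := TA V a)

/-- `φ : SymPow a V → T`, `v₁⋯v_a ↦ (1/a!) ∑_σ ∏ᵢ v_{σ i}(yᵢ)`. -/
def phi (a : ℕ) : SymPow a V →ₗ[ℂ] TA V a :=
  ((a.factorial : ℂ)⁻¹) • ((phiRaw V a) ∘ₗ (symPowSubmodule a V).subtype)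

theorem phi_mono (a : ℕ) (v : Fin a → V) :
    phi V a (symMonomial a V v) = ((a.factorial : ℂ)⁻¹) •
      ∑ σ : Equiv.Perm (Fin a), ∏ i, yy V a i (SymmetricAlgebra.ι ℂ V (v (σ i))) := by
  simp only [phi, LinearMap.smul_apply, LinearMap.comp_apply, Submodule.subtype_apply]
  rw [← phiRaw_mono]
  rfl

/-- `Φ : S(SymPow a V) → T`. -/
def Phi (a : ℕ) : SymmetricAlgebra ℂ (SymPow a V) →ₐ[ℂ] TA V a :=
  SymmetricAlgebra.lift (phi V a)

theorem Phi_monoMono (a b : ℕ) (v : Fin b → Fin a → V) :
    Phi V a (monoMono V a b v) = (((a.factorial : ℂ) ^ b)⁻¹) •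
      ∑ σ : Fin b → Equiv.Perm (Fin a),
        ∏ i, yy V a i (symMonomialRaw b V (fun j => v j ((σ j) i))) := by
  classical
  simp only [Phi, monoMono, symMonomialRaw, map_prod, SymmetricAlgebra.lift_ι_apply, phi_mono]
  rw [Finset.prod_smul, Finset.prod_const, Finset.card_univ, Fintype.card_fin, inv_pow]
  congr 1
  rw [Finset.prod_univ_sum, Fintype.piFinset_univ]
  refine Finset.sum_congr rfl (fun σ _ => ?_)
  rw [Finset.prod_comm]

/-- a linear retraction of `S(V)` onto `SymPow b V`. -/
def retr (b : ℕ) : SA V →ₗ[ℂ] SymPow b V :=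
  ((symPowSubmodule b V).subtype.exists_leftInverse_of_injective
    (symPowSubmodule b V).ker_subtype).choose

theorem retr_apply (b : ℕ) (x : SymPow b V) : retr V b (x : SA V) = x := by
  have := ((symPowSubmodule b V).subtype.exists_leftInverse_of_injective
    (symPowSubmodule b V).ker_subtype).choose_spec
  exact congrArg (fun f => f x) this

/-- `ρ : S(S(V)) → S(SymPow b V)`. -/
def rho (b : ℕ) : SymmetricAlgebra ℂ (SA V) →ₐ[ℂ] SymmetricAlgebra ℂ (SymPow b V) :=
  SymmetricAlgebra.lift ((SymmetricAlgebra.ι ℂ (SymPow b V)) ∘ₗ retr V b)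

theorem rho_iota (b : ℕ) (x : SymPow b V) :
    rho V b (SymmetricAlgebra.ι ℂ (SA V) (x : SA V)) = SymmetricAlgebra.ι ℂ (SymPow b V) x := by
  simp [rho, retr_apply]

/-- the Foulkes map on the ambient algebra. -/
def mu0 (a b : ℕ) : SymmetricAlgebra ℂ (SymPow a V) →ₗ[ℂ] SymmetricAlgebra ℂ (SymPow b V) :=
  (rho V b).toLinearMap ∘ₗ (Om V a) ∘ₗ (Phi V a).toLinearMap

theorem mu0_monoMono (a b : ℕ) (v : Fin b → Fin a → V) :
    mu0 V a b (monoMono V a b v) = (foulkesFormula a b V v : SymmetricAlgebra ℂ (SymPow b V)) := by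
  classical
  simp only [mu0, LinearMap.comp_apply, AlgHom.toLinearMap_apply, Phi_monoMono, map_smul, map_sum,
    Om_prod_yy, map_prod]
  simp only [foulkesFormula, Submodule.coe_smul, Submodule.coe_sum]
  congr 1
  refine Finset.sum_congr rfl (fun σ _ => ?_)
  simp only [symMonomial, symMonomialRaw]
  refine Finset.prod_congr rfl (fun i _ => ?_)
  exact rho_iota V b (symMonomial b V (fun j => v j ((σ j) i)))


theorem mu0_maps (a b : ℕ) :
    ∀ x ∈ symPowSubmodule b (SymPow a V), mu0 V a b x ∈ symPowSubmodule a (SymPow b V) := by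
  intro x hx
  have hx' := symPow_le_span_monoMono V a b hx
  induction hx' using Submodule.span_induction with
  | mem x hx' =>
    obtain ⟨v, rfl⟩ := hx'
    rw [mu0_monoMono]
    exact (foulkesFormula a b V v).2
  | zero => rw [map_zero]; exact Submodule.zero_mem _
  | add x y hx1 hy1 ihx ihy =>
    rw [map_add]
    exact Submodule.add_mem _ (ihx (by rw [← span_monoMono]; exact hx1))
      (ihy (by rw [← span_monoMono]; exact hy1))
  | smul c x hx1 ihx =>
    rw [map_smul]
    exact Submodule.smul_mem _ c (ihx (by rw [← span_monoMono]; exact hx1))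

/-- the Foulkes map. -/
def mu (a b : ℕ) : SymPow b (SymPow a V) →ₗ[ℂ] SymPow a (SymPow b V) :=
  (mu0 V a b).restrict (mu0_maps V a b)

theorem mu_isFoulkes (a b : ℕ) : IsFoulkesMap a b V (mu V a b) := by
  intro v
  apply Subtype.ext
  exact mu0_monoMono V a b v

theorem mu_unique (a b : ℕ) (ν : SymPow b (SymPow a V) →ₗ[ℂ] SymPow a (SymPow b V))
    (hν : IsFoulkesMap a b V ν) : ν = mu V a b := by
  apply ext_monoMono
  intro v
  rw [hν v, mu_isFoulkes V a b v]

/-- The interface with the algebraic core of the proof. -/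
def CoreStatement (a b : ℕ) : Prop :=
  ∀ f : Fin a → SA V, (∀ k, f k ∈ symPowSubmodule b V) →
    ∏ k, SymmetricAlgebra.ι ℂ (SA V) (f k) ∈
      Submodule.span ℂ (Set.range fun s : Fin b → V =>
        (SymmetricAlgebra.ι ℂ (SA V) (symMonomialRaw b V s)) ^ a)

theorem foulkesFormula_const (a b : ℕ) (s : Fin b → V) :
    (foulkesFormula a b V (fun j _ => s j) : SymmetricAlgebra ℂ (SymPow b V)) =
      (SymmetricAlgebra.ι ℂ (SymPow b V) (symMonomial b V s)) ^ a := by
  classical
  have this : ((a.factorial : ℂ) ^ b)⁻¹ * ((a.factorial ^ b : ℕ) : ℂ) = 1 := by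
    push_cast
    exact inv_mul_cancel₀ (pow_ne_zero _ (Nat.cast_ne_zero.2 a.factorial_ne_zero))
  have h1 : foulkesFormula a b V (fun j _ => s j) =
      symMonomial a (SymPow b V) (fun _ => symMonomial b V s) := by
    simp only [foulkesFormula, Finset.sum_const, Finset.card_univ, Fintype.card_pi,
      Fintype.card_perm, Fintype.card_fin, Finset.prod_const]
    rw [← Nat.cast_smul_eq_nsmul ℂ, smul_smul, this, one_smul]
  rw [h1]
  simp [symMonomial, symMonomialRaw]

theorem mu_surjective (a b : ℕ) (h : CoreStatement V a b) : Function.Surjective (mu V a b) := by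
  rw [← LinearMap.range_eq_top, eq_top_iff, ← span_symMonomial_eq_top, Submodule.span_le]
  rintro _ ⟨f, rfl⟩
  have h1 := h (fun k => (f k : SA V)) (fun k => (f k).2)
  have h2 : ∀ z ∈ Submodule.span ℂ (Set.range fun s : Fin b → V =>
        (SymmetricAlgebra.ι ℂ (SA V) (symMonomialRaw b V s)) ^ a),
      ∃ x : SymPow b (SymPow a V), ((mu V a b x : SymPow a (SymPow b V)) :
        SymmetricAlgebra ℂ (SymPow b V)) = rho V b z := by
    intro z hz
    induction hz using Submodule.span_induction with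
    | mem z hz =>
      obtain ⟨s, rfl⟩ := hz
      refine ⟨symMonomial b (SymPow a V) (fun j => symMonomial a V (fun _ => s j)), ?_⟩
      rw [mu_isFoulkes V a b (fun j _ => s j), foulkesFormula_const, map_pow]
      congr 1
      exact (rho_iota V b (symMonomial b V s)).symm
    | zero => exact ⟨0, by simp⟩
    | add x y _ _ ihx ihy =>
      obtain ⟨x', hx'⟩ := ihx
      obtain ⟨y', hy'⟩ := ihy
      exact ⟨x' + y', by simp [hx', hy']⟩
    | smul c x _ ihx =>
      obtain ⟨x', hx'⟩ := ihx
      exact ⟨c • x', by simp [hx']⟩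
  obtain ⟨x, hx⟩ := h2 _ h1
  refine ⟨x, Subtype.ext ?_⟩
  rw [hx, map_prod]
  simp only [symMonomial, symMonomialRaw]
  exact Finset.prod_congr rfl (fun k _ => rho_iota V b (f k))

/-- Final assembly. -/
theorem main_of_core (a b : ℕ) (h : CoreStatement V a b) :
    ∃ μ : SymPow b (SymPow a V) →ₗ[ℂ] SymPow a (SymPow b V),
      IsFoulkesMap a b V μ ∧ Function.Surjective μ ∧
        ∀ ν : SymPow b (SymPow a V) →ₗ[ℂ] SymPow a (SymPow b V), IsFoulkesMap a b V ν → ν = μ :=
  ⟨mu V a b, mu_isFoulkes V a b, mu_surjective V a b h, mu_unique V a b⟩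

end

end Claimed.Agent.R123.H103
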